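import Crest.Agent.X262.Read67.Sd
import Crest.Agent.X262.Cd62.Prj
import Crest.Agent.X262.Prd86.Pj
import Crest.Agent.X262.End66.Gen
import Crest.Agent.X262.Div34.Core
import Crest.Agent.X262.Tr89.Pb
import Crest.Agent.X262.Sym65.Two

/-!
# Row 262, road B (helper67): the top coefficient of the product end

* `two_glob` : cutting by the zero scheme of a section of a global bundle;
* `rn_tow`, `rn_pgen`, `sm_rel` : integration along projective spaces;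
* `cpV_red`, `cpz_TP`, `cp_xT` : the Chern polynomial of the product end;
* `topStmt`.
-/

set_option autoImplicit false
set_option linter.unusedSectionVars false
set_option maxHeartbeats 400000

noncomputable section

namespace Crest.Agent.X262.Read67

open Crest.Agent.X277 Crest.Agent.X277.BD Crest.Agent.X277.Pst Crest.Agent.X277.BD.Cyc Polynomial
open Crest.Agent.X262.Geo Crest.Agent.X262.Hb Crest.Agent.X262.Vb
open Crest.Agent.X262.Conc78 (Cd)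
open Crest.Agent.X262.Cd62 (TP pd)
open Crest.Agent.X262.Sym65 (PF PX Liv LivX Sup sm cf i1 qv)
open Crest.Agent.X262.Div (rn bnum_rn exists_lam tower_ind rn_tower finsum_rel itg_rn cw)
open Crest.Agent.X262.Bub96.Tr (dot)

variable {K L F E : Type} [Field K] [Algebra ℂ K] [Algebra.EssFiniteType ℂ K] [Field L]
  [Algebra ℂ L] [Algebra.EssFiniteType ℂ L] [Field F] [Algebra ℂ F] [Algebra.EssFiniteType ℂ F]
  [Field E] [Algebra ℂ E] [Algebra.EssFiniteType ℂ E] {B : Th}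

/-- a global class as a family -/
abbrev gl (x : B.H K) : PF B K := fun _ _ _ p => B.pb p x

/-- a global polynomial as a family -/
abbrev glX (x : (B.H K)[X]) : PX B K := fun E _ _ p => x.map (B.pb p : B.H K →+* B.H E)

/-- the second bundle is global -/
theorem two_glob (hB : B.Ax) {D H : BD ℂ K} (hD : 0 ≤ D) (hH : 0 ≤ H) {P : PX B K} {ψ : PF B K}
    {R : (B.H K)[X]} (hP : LivX B (Sup D) P) (hψ : Liv B (Sup D) ψ)
    (h1 : ∀ (E : Type) [Field E] [Algebra ℂ E] [Algebra.EssFiniteType ℂ E] (p : LP K E),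
      p.V ∈ Sup D → Sym65.pv P (cf B D) E p = 0) (h2 : R.eval (B.c1 H) = 0) :
    sm (D ⊓ H) (i1 (qv (P * glX R) (cf B (D ⊓ H)) * ψ)) =
      sm D (i1 (qv P (cf B D) * gl (R.eval 0) * ψ)) := by
  have s : Sup (D ⊓ H) ⊆ Sup D := by
    rw [Sym65.sup_inf hD hH]
    exact Set.inter_subset_left
  have h3 : ∀ (E : Type) [Field E] [Algebra ℂ E] (p : LP K E),
      Sym65.pv (glX R) (cf B H) E p = 0 := fun E _ _ p =>
    (pb_eval p R _).symm.trans (by rw [h2, map_zero])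
  have h4 : Sym65.pv (glX R) 0 = gl (R.eval 0) := by
    funext E _ _ p
    rw [gl, pb_eval, map_zero]
    rfl
  have h5 : cf B H * qv (glX R) (cf B H) = gl (R.eval 0) := by
    funext E _ _ p
    rw [← h4, ← sub_zero (Sym65.pv (glX R) 0 E p), ← h3 E p]
    exact Sym65.eval_divX _ _
  rw [Sym65.two hB hD hH (hP.mono s) (LivX.glob hB R) (hψ.mono s)
    (fun E _ _ _ p hp => h1 E p (s hp)) (fun E _ _ _ p _ _ => h3 E p), h4]
  refine Vb.sm_congr fun V hV h6 => ?_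
  split_ifs with h7
  · rw [← Sym65.i1_cf hB (((hP.qv (Liv.cf hB D)).mul
      ((LivX.glob hB R).qv (Liv.cf hB H))).mul hψ) hV h6 h7, ← h5]
    congr 1
    ring
  · rfl

theorem rn_tow (α : K →ₐ[ℂ] L) (β : L →ₐ[ℂ] F) {l : List (BD ℂ L)}
    (h : l.length + dim ℂ K = dim ℂ L) (l' : List (BD ℂ F)) :
    rn (β.comp α) (l' ++ l.map (pb β)) = rn α l * rn β l' := by
  obtain ⟨lam, h1, h2⟩ := exists_lam ℂ K
  have h3 := bnum_rn β l' (lam := l ++ lam.map (pb α)) (by simp [h1, h])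
  rw [bnum_rn α l h1, List.map_append, List.map_map,
    show pb β ∘ pb α = pb (β.comp α) from funext (BD.pb_pb β α), ← List.append_assoc,
    bnum_rn _ _ h1] at h3
  exact mul_left_cancel₀ h2 (h3.trans (by ring))

/-- the degree of a projective space -/
theorem rn_pgen {X : Type} [Fintype X] {θ : K →ₐ[ℂ] F} {μ : X → F} (g : PGen θ μ) {n : ℕ}
    (hn : Fintype.card X = n + 1) : rn θ (List.replicate n (mxf ℂ μ)) = 1 := by
  induction θ using tower_ind with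
  | h =>
    let e := (Fintype.equivFinOfCardEq hn).symm
    have h1 := g.dm
    rw [hn, Loc.dim_tower ℂ K F] at h1
    rw [rn_tower, List.map_replicate, ← End66.mxf_congr (e.surjective.range_comp μ), up_mxf]
    refine Tr89.bnum_proj (g.ne _) (eq_top_iff.2 fun x _ => ?_) (by omega)
    let G := IntermediateField.adjoin K (Set.range fun i : Fin n => (μ ∘ e) i.succ / (μ ∘ e) 0)
    have h2 : ∀ x, μ x / μ (e 0) ∈ G := e.surjective.forall.2 fun i => by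
      refine Fin.cases ?_ (fun i => IntermediateField.subset_adjoin _ _ ⟨i, rfl⟩) i
      rw [div_self (g.ne _)]
      exact one_mem _
    have h3 : (⊤ : IntermediateField ℂ F) ≤ G.restrictScalars ℂ := by
      rw [← g.gen, IntermediateField.adjoin_le_iff]
      rintro _ (⟨a, rfl⟩ | ⟨a, b, rfl⟩)
      · exact G.algebraMap_mem a
      · rw [← div_div_div_cancel_right₀ (g.ne (e 0))]
        exact div_mem (h2 a) (h2 b)
    exact h3 IntermediateField.mem_top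

variable {J : Type} [Fintype J] [DecidableEq J] {io : J → Type} [∀ j, Fintype (io j)]
  [∀ j, DecidableEq (io j)] {J₀ : Type} [Fintype J₀] [DecidableEq J₀] {io₀ : J₀ → Type}
  [∀ j, Fintype (io₀ j)] [∀ j, DecidableEq (io₀ j)] {A A₀ I M : Type} [Fintype A] [Fintype A₀]
  [Fintype I]

theorem sm_rel (hB : B.Ax) {T : Tgt io A} {Φ : MFam B io M} (hΦ : MCls B T Φ) (θ : K →ₐ[ℂ] L)
    {z : Cfg io I K} (hz : z.NZ) (m : M → I) {l : List (BD ℂ L)}
    (hl : l.length + dim ℂ K ≤ dim ℂ L) :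
    (sm ((z.map θ).dv T) fun W => B.itg (Rf W)
      (B.pb (LP.at W) (Tr89.pc B l) * trm B T (z.map θ) m Φ W)) = rn θ l * vir B T z m Φ := by
  rw [Cfg.dv_map]
  refine finsum_rel θ l _ _ _ fun W hW hV h0 => ?_
  have := essFT_Rf hW
  have := essFT_Rf hV
  have h1 := Val40.dim_rf hW hV.ne_top
  rw [Tr89.pb_pc hB, Div.trm_map hB hΦ θ hz m hW hV h0,
    itg_rn hB _ _ (by rw [List.length_map]; omega), cw]
  rfl

theorem hc_red (hB : B.Ax) {z : Cfg io I K} (hz : z.NZ) (p : LP K E) (j : J) (q : I) :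
    hc B j E ((z.red p.toPl).y q) = B.pb p (hc B j K (z.y q)) :=
  ((cls_hc (T := (⟨Empty.elim, Empty.elim, fun a => a.elim⟩ : Tgt io Empty)) hB j).at ()).red
    (m := fun _ => q) p hz fun _ a => a.elim

/-- the ambient bundle is global -/
theorem cpV_red (hB : B.Ax) (T : Tgt io A) {z : Cfg io I K} (hz : z.NZ) (p : LP K E) :
    B.cp ((z.red p.toPl).ea T) ((z.red p.toPl).Vt T) =
      (B.cp (z.ea T) (z.Vt T)).map (B.pb p : B.H K →+* B.H E) := by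
  have hP := Cfg.pr_nrm hz p.V
  have hc := Cfg.nrm_ne p.V z
  rw [← hB.cp_dia (fun x : A × I => Node22.chr_ne (hc x.2) _) (congrFun (Cfg.ea_gau T hz hc))
    (z.Vt T), hB.cp_rd (hP.val_ea T), Cfg.red, Cfg.ea_red0 T hP, ← Cfg.redS_Vt, Cfg.Vt_gau T hc]
  rfl

variable (r : Cd io₀ io) {T : Tgt io₀ A₀}

theorem cpz_TP (hB : B.Ax) (z : Cfg io I E) : cpz B (TP r T) z =
    cpz B T (Cd62.pc r z) * B.cp (z.ea r.cn.xT) (z.Vt r.cn.xT) := by
  let e := Equiv.sumProdDistrib A₀ r.cn.KL I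
  rw [cpz, cpz, ← hB.cp_dsum,
    ← hB.cp_funLeft (g := e.symm) fun _ _ i hi => (hi (e.symm.surjective i)).elim]
  congr 1
  · funext x
    rcases x with x | x
    · exact Cd62.ea_inl r z _ _
    · rfl
  · ext u
    rw [mem_dsum, Node22.mem_Vt]
    refine ⟨?_, fun hu => ⟨fun x => u (e x), (Cd62.mem_Eb_TP r).2 hu,
      funext fun x => congrArg u (Equiv.apply_symm_apply _ x)⟩⟩
    rintro ⟨σ, hσ, rfl⟩
    exact (Cd62.mem_Eb_TP r).1 hσ

theorem dv_tgt (z : Cfg io I E) : z.dv (r.tgt T) = (Cd62.pc r z).dv T := by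
  rw [Cfg.dv, Cfg.dv]
  congr 2
  · exact funext fun _ => r.pv_rename _ _
  · exact funext fun _ => Cd62.lw_up r _ _

variable {d₀ : J₀ → ℕ} (ξ : Dat io₀ d₀ I K) {μ : io r.cn.jS → K} {ζ : io r.cn.jC → K}
  (hμ : ∃ i, μ i ≠ 0) (hζ : ∃ i, ζ i ≠ 0)

theorem pc_dat : Cd62.pc r (dat r ξ μ ζ hμ hζ).cfg = ξ.cfg := by
  rw [← Cd62.pd_cfg]
  congr 1
  exact congrArg (fun f => Dat.mk f.1 ξ.x f.2)
    (Subtype.ext (pr_tri r ξ.f _ _) : (⟨_, (pd r (dat r ξ μ ζ hμ hζ)).cp⟩ : {f // Cp d₀ f}) =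
      ⟨_, ξ.cp⟩)

theorem y_C (q : I) : (dat r ξ μ ζ hμ hζ).cfg.y q r.cn.jC = ζ :=
  (congrFun (dat_pt r ξ hμ hζ _) _).trans (tri_C r _ _ _)

theorem y_S (q : I) : (dat r ξ μ ζ hμ hζ).cfg.y q r.cn.jS = μ :=
  (congrFun (dat_pt r ξ hμ hζ _) _).trans (tri_S r _ _ _)

theorem mem_V_zero {d κ : J → ℕ} (η : Dat io d I K) (h : dot κ d = 0) {u : I → K} :
    u ∈ η.cfg.V κ ↔ ∃ c, ∀ q, u q = c := by
  have h1 : ∀ (c : K) (t : Option K), Bub96.hv 0 (C c) t = c := fun c t => by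
    cases t <;> simp [Bub96.hv]
  change u ∈ (degreeLE K (dot κ d : ℕ)).map (η.evl (dot κ d)) ↔ _
  rw [h]
  refine ⟨?_, fun ⟨c, hc⟩ => ⟨C c, mem_degreeLE.2 degree_C_le, funext fun q =>
    (h1 c _).trans (hc q).symm⟩⟩
  rintro ⟨σ, hσ, rfl⟩
  exact ⟨_, fun q => by rw [eq_C_of_degree_le_zero (mem_degreeLE.1 hσ)]; exact h1 _ _⟩

theorem cp_xT (hB : B.Ax) (q₀ : I) :
    B.cp ((dat r ξ μ ζ hμ hζ).cfg.ea r.cn.xT) ((dat r ξ μ ζ hμ hζ).cfg.Vt r.cn.xT) =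
      (C (B.c1 (mxf ℂ ζ)) - X) ^ Fintype.card r.cn.KL := by
  have h0 : dot r.cn.kx (r.up d₀) = 0 := by
    refine Finset.sum_eq_zero fun j _ => ?_
    by_cases h : j = r.cn.jC
    · rw [h, show r.up d₀ r.cn.jC = 0 from r.up_C d₀, mul_zero]
    · rw [Conc78.Cn.kx, Pi.single_eq_of_ne h, zero_mul]
  rw [← Finset.card_univ, ← Finset.prod_const, ← hB.cp_top fun _ : r.cn.KL => mxf ℂ ζ,
    ← hB.cp_funLeft (g := (Prod.fst : r.cn.KL × I → _)) fun _ _ i hi => (hi ⟨(i, q₀), rfl⟩).elim]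
  congr 1
  · funext x
    exact (lw_single _ _).trans (congrArg _ (y_C r ξ hμ hζ _))
  · ext u
    rw [Node22.mem_Vt]
    refine ⟨fun h => ⟨fun p => u (p, q₀), trivial, funext fun x => ?_⟩, ?_⟩
    · obtain ⟨c, hc⟩ := (mem_V_zero _ h0).1 (h x.1)
      exact (hc q₀).trans (hc x.2).symm
    · rintro ⟨v, -, rfl⟩ p
      exact (mem_V_zero _ h0).2 ⟨v p, fun _ => rfl⟩

/-- the product end over a field which contains the points of `C` and `S` -/
theorem vir_TP (hB : B.Ax) (hR : Rk T ξ.cfg) (h1 : ¬ ξ.cfg.On T)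
    (h2 : ∃ p, ζ (r.cn.f (some p)) ≠ 0) {Φ : MFam B io₀ M} (hΦ : MCls B T Φ) (m : M → I) (q₀ : M)
    (n : ℕ) : vir B (TP r T) (dat r ξ μ ζ hμ hζ).cfg m
      (fun E _ _ y => hc B r.cn.jS E (y q₀) ^ n * Φ E fun q => r.pr (y q)) =
    sm (ξ.cfg.dv T) fun W => B.itg (Rf W) (B.pb (LP.at W)
      (B.c1 (mxf ℂ μ) ^ n * B.c1 (mxf ℂ ζ) ^ Fintype.card r.cn.KL) * trm B T ξ.cfg m Φ W) := by
  have hz := Tree87.nz_cfg (dat r ξ μ ζ hμ hζ)
  have hp := pc_dat r ξ hμ hζ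
  have hx := cp_xT r ξ hμ hζ hB (m q₀)
  have hS : hc B r.cn.jS K ((dat r ξ μ ζ hμ hζ).cfg.y (m q₀)) = B.c1 (mxf ℂ μ) :=
    congrArg (fun t => B.c1 (mxf ℂ t)) (y_S r ξ hμ hζ _)
  have n2 : ¬ (dat r ξ μ ζ hμ hζ).cfg.On r.cn.xT := fun h => h2.elim fun p hp => hp <| by
    rw [← y_C r ξ hμ hζ (m q₀), ← Cd62.sv_inr (T := T)]
    exact h (m q₀) p
  have hs : (dat r ξ μ ζ hμ hζ).cfg.sv r.cn.xT ∈ (dat r ξ μ ζ hμ hζ).cfg.Vt r.cn.xT :=
    Node22.mem_Vt.2 fun p => Tree87.pv_mem_cfg _ (r.cn.mh_xi p)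
  generalize (dat r ξ μ ζ hμ hζ).cfg = z at *
  have n1 : ¬ z.On (r.tgt T) := fun h => h1 (hp ▸ fun q => (r.on_tgt T _).1 (h q))
  have h3 := hB.eval_cp_line (a := z.ea r.cn.xT) hs fun h => n2 ((Cfg.on_iff _).2 h)
  rw [← Cfg.dv_eq_dst _ n2, hx] at h3
  have h4 := two_glob hB (Cfg.dv_nonneg T hR.nz) (Cfg.dv_nonneg r.cn.xT hz)
    ((hR.livX hB).mono (sup_sub hR.nz))
    ((Liv.glob hB (B.c1 (mxf ℂ μ) ^ n)).mul ((liv_evF hΦ hR.nz m).mono (sup_sub hR.nz)))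
    (fun E _ _ _ p => hR.root' hB) h3
  rw [vir_eq_sm, Prd.dv_sum n1 n2, dv_tgt, hp]
  refine Eq.trans (Vb.sm_congr fun W hW _ => ?_) (h4.trans (congrArg _ (funext fun W => ?_)))
  · have := essFT_Rf hW
    have h5 := cpz_TP r (T := T) hB (z.red (LP.at W).toPl)
    rw [Cd62.pc_red, hp, cpV_red hB _ hz, hx] at h5
    refine congrArg (B.itg (Rf W)) (congrArg₂ (· * ·)
      (congrArg (fun P : (B.H (Rf W))[X] => (-P.divX).eval _) h5) (congrArg₂ (· * ·) ?_ ?_))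
    · rw [hc_red hB hz, hS, ← map_pow]
    · rw [← hp, evF, ← Cd62.pc_red]
      rfl
  · refine congrArg (B.itg (Rf W)) ?_
    rw [trm_eq, eval_pow, eval_sub, eval_C, eval_X, sub_zero, map_mul]
    simp only [Pi.mul_apply]
    ring

/-- **the top coefficient** -/
theorem topStmt : TopStmt := by
  intro B hB J _ _ io _ _ J₀ _ _ io₀ _ _ A₀ _ r Tn c₀ d₀ hG
  obtain ⟨N₀, hN₀⟩ := rk_of Tree87.rankStmt hG
  refine ⟨N₀, fun N hN M _ S Φ hΦ q₀ r₀ hr => ?_⟩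
  have hC : Fintype.card (io r.cn.jC) = Fintype.card r.cn.KL + 1 := by
    rw [← Fintype.card_congr r.cn.f, Fintype.card_option]
  have d1 := S.gζ.dm
  have d2 := S.gμ.dm
  obtain ⟨k, -⟩ := S.ξ'.cp.2.1 r.cn.jU
  obtain ⟨l, -⟩ := S.hμ
  have h1 := sm_rel hB hΦ (S.a₂.comp S.a₁) (Tree87.nz_cfg S.ξ) S.m
    (l := List.replicate r₀ (mxf ℂ S.μ) ++
      (List.replicate (Fintype.card r.cn.KL) (mxf ℂ S.ζ)).map (pb S.a₂)) 
    (by simp only [List.length_append, List.length_map, List.length_replicate]; omega)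
  rw [rn_tow _ _ (by rw [List.length_replicate]; omega), rn_pgen S.gζ hC, rn_pgen S.gμ hr, List.map_replicate, pb_mxf,
    Tr89.pc_append, Tr89.pc_replicate, Tr89.pc_replicate, ← Vb37.cfg_map] at h1
  refine (vir_TP r _ _ _ hB (hN₀ _ (Tree87.nz_cfg _) (Vb37.nrmUp_map (Vb37.nrmUp_mono S.nrm hN) _))
    ?_ ⟨(k, l), (map_ne_zero S.a₂).2 (S.gζ.ne _)⟩ hΦ S.m q₀ r₀).trans (h1.trans (by simp))
  rw [Vb37.cfg_map, Cfg.on_map]
  exact End66.over_not_on S.ov hG.1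

end Crest.Agent.X262.Read67
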