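import Crest.Agent.X262.Read67.Defs
import Crest.Agent.X262.Conc78.Defs

/-!
# Row 262, road B (helper67): the special datum of the concave end

* `dat r ξ μ ζ` : the datum `ξ` with the constant maps `μ`, `ζ` to the factors `S`, `C`;
* `SD r d₀ M N` : the tower `K → K₁ → K₂` with the generic points of `C` and of `S`.
-/

set_option autoImplicit false
set_option linter.unusedSectionVars false
set_option maxHeartbeats 400000

noncomputable section

namespace Crest.Agent.X262.Read67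

open Crest.Agent.X277 Crest.Agent.X277.BD Polynomial
open Crest.Agent.X262.Hb Crest.Agent.X262.Vb
open Crest.Agent.X262.Conc78 (Cd)

variable {J : Type} [Fintype J] [DecidableEq J] {io : J → Type} [∀ j, Fintype (io j)]
  [∀ j, DecidableEq (io j)] {J₀ : Type} [Fintype J₀] [DecidableEq J₀] {io₀ : J₀ → Type}
  [∀ j, Fintype (io₀ j)] [∀ j, DecidableEq (io₀ j)]

section Dat

variable (r : Cd io₀ io) {d₀ : J₀ → ℕ} {I K L : Type} [Field K] [Algebra ℂ K] [Field L]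
  [Algebra ℂ L]

/-- a family indexed by the variables, given on the three kinds of factors -/
def tri {R : Type} (f : Pnt io₀ R) (μ : io r.cn.jS → R) (ζ : io r.cn.jC → R) : Pnt io R :=
  Equiv.piCongrLeft (fun j => io j → R) r.e fun o => match o with
    | none => ζ
    | some none => μ
    | some (some k) => fun i => f k ((r.ei k).symm i)

section Tri

variable {R : Type} (f : Pnt io₀ R) (μ μ' : io r.cn.jS → R) (ζ : io r.cn.jC → R)

theorem tri_C : tri r f μ ζ (r.e none) = ζ := Equiv.piCongrLeft_apply_apply _ _ _ _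

theorem tri_S : tri r f μ ζ (r.e (some none)) = μ := Equiv.piCongrLeft_apply_apply _ _ _ _

theorem tri_k (k : J₀) : tri r f μ ζ (r.e (some (some k))) = fun i => f k ((r.ei k).symm i) :=
  Equiv.piCongrLeft_apply_apply _ _ _ _

theorem pr_tri : r.pr (tri r f μ ζ) = f := by
  funext k i
  rw [Cd.pr, tri_k]
  exact congrArg _ (Equiv.symm_apply_apply _ _)

/-- the three kinds of factors -/
theorem cases {p : J → Prop} (hC : p (r.e none)) (hS : p (r.e (some none)))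
    (hk : ∀ k, p (r.e (some (some k)))) (j : J) : p j := by
  obtain ⟨j, rfl⟩ := r.e.surjective j
  rcases j with _ | _ | k
  exacts [hC, hS, hk k]

theorem tri_ne {j : J} (h : j ≠ r.cn.jS) : tri r f μ ζ j = tri r f μ' ζ j := by
  induction j using cases r with
  | hC => rw [tri_C, tri_C]
  | hS => exact (h rfl).elim
  | hk k => rw [tri_k, tri_k]

theorem tri_comp {R' : Type} (g : R → R') (j : J) (i : io j) :
    g (tri r f μ ζ j i) = tri r (fun k i => g (f k i)) (g ∘ μ) (g ∘ ζ) j i := by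
  induction j using cases r with
  | hC => rw [tri_C, tri_C]; rfl
  | hS => rw [tri_S, tri_S]; rfl
  | hk k => rw [tri_k, tri_k]

end Tri

omit [Algebra ℂ K] in
theorem cp_const {X : Type} {μ : X → K} (h : ∃ x, μ x ≠ 0) :
    Ideal.span (Set.range fun x => (C (μ x) : K[X])) = ⊤ := by
  obtain ⟨x, hx⟩ := h
  exact Ideal.eq_top_of_isUnit_mem _ (Ideal.subset_span ⟨x, rfl⟩) (isUnit_C.2 hx.isUnit)

/-- the datum `ξ` with constant maps to `S` and to `C` -/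
def dat (ξ : Dat io₀ d₀ I K) (μ : io r.cn.jS → K) (ζ : io r.cn.jC → K) (hμ : ∃ i, μ i ≠ 0)
    (hζ : ∃ i, ζ i ≠ 0) : Dat io (r.up d₀) I K where
  f := tri r ξ.f (fun i => C (μ i)) fun i => C (ζ i)
  x := ξ.x
  cp := by
    refine ⟨cases r ?_ ?_ fun k => ?_, cases r ?_ ?_ fun k => ?_, cases r ?_ ?_ fun k => ?_⟩
    · rw [tri_C]; exact fun i => (natDegree_C _).le.trans (Nat.zero_le _)
    · rw [tri_S]; exact fun i => (natDegree_C _).le.trans (Nat.zero_le _)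
    · rw [tri_k, Cd.up_k]; exact fun i => ξ.cp.1 k _
    · rw [tri_C, Cd.up_C]; exact hζ.imp fun i hi => by rwa [coeff_C_zero]
    · rw [tri_S, Cd.up_S]; exact hμ.imp fun i hi => by rwa [coeff_C_zero]
    · rw [tri_k, Cd.up_k]
      obtain ⟨i, hi⟩ := ξ.cp.2.1 k
      exact ⟨r.ei k i, by beta_reduce; rwa [Equiv.symm_apply_apply]⟩
    · rw [tri_C]; exact cp_const hζ
    · rw [tri_S]; exact cp_const hμ
    · rw [tri_k, ← ξ.cp.2.2 k]
      exact congrArg _ ((r.ei k).symm.surjective.range_comp (ξ.f k))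

variable (ξ : Dat io₀ d₀ I K) {μ μ' : io r.cn.jS → K} {ζ : io r.cn.jC → K} (hμ : ∃ i, μ i ≠ 0)
  (hμ' : ∃ i, μ' i ≠ 0) (hζ : ∃ i, ζ i ≠ 0)

theorem dat_x : (dat r ξ μ ζ hμ hζ).x = ξ.x := rfl

theorem dat_f_C : (dat r ξ μ ζ hμ hζ).f (r.e none) = fun i => C (ζ i) := tri_C r _ _ _

theorem dat_f_S : (dat r ξ μ ζ hμ hζ).f (r.e (some none)) = fun i => C (μ i) := tri_S r _ _ _

theorem dat_f_k (k : J₀) (i : io₀ k) :
    (dat r ξ μ ζ hμ hζ).f (r.e (some (some k))) (r.ei k i) = ξ.f k i :=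
  congrFun (congrFun (pr_tri r ξ.f _ _) k) i

theorem dat_f_ne {j : J} (h : j ≠ r.cn.jS) :
    (dat r ξ μ ζ hμ hζ).f j = (dat r ξ μ' ζ hμ' hζ).f j := tri_ne r _ _ _ _ h

omit [Algebra ℂ K] [Algebra ℂ L] in
theorem ex_comp {X : Type} {μ : X → K} (h : ∃ x, μ x ≠ 0) {F : Type} [FunLike F K L]
    [MonoidWithZeroHomClass F K L] (α : F) : ∃ x, (α ∘ μ) x ≠ 0 :=
  h.imp fun _ hx => (map_ne_zero α).2 hx

theorem dat_map (α : K →ₐ[ℂ] L) : (dat r ξ μ ζ hμ hζ).map α =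
    dat r (ξ.map α) (α ∘ μ) (α ∘ ζ) (ex_comp hμ α) (ex_comp hζ α) := by
  unfold Dat.map dat
  congr 1
  funext j i
  rw [tri_comp r _ _ _ (Polynomial.map (α : K →+* L))]
  congr 1 <;> funext i <;> exact map_C _

theorem dat_res {I' : Type} (m : I' → I) :
    (dat r ξ μ ζ hμ hζ).res m = dat r (ξ.res m) μ ζ hμ hζ := rfl

theorem dat_pt (t : Option K) : (dat r ξ μ ζ hμ hζ).pt t = tri r (ξ.pt t) μ ζ := by
  funext j
  induction j using cases r with
  | hC =>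
    funext i
    rw [Dat.pt, dat_f_C, tri_C, Cd.up_C]
    cases t <;> simp [Bub96.hv]
  | hS =>
    funext i
    rw [Dat.pt, dat_f_S, tri_S, Cd.up_S]
    cases t <;> simp [Bub96.hv]
  | hk k =>
    funext i
    obtain ⟨i, rfl⟩ := (r.ei k).surjective i
    rw [Dat.pt, dat_f_k, tri_k, Cd.up_k]
    beta_reduce
    rw [Equiv.symm_apply_apply, Dat.pt]

end Dat

theorem PGen.ex {K F X : Type} [Field K] [Algebra ℂ K] [Field F] [Algebra ℂ F] [Fintype X]
    [h : Nonempty X] {θ : K →ₐ[ℂ] F} {μ : X → F} (g : PGen θ μ) : ∃ x, μ x ≠ 0 :=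
  h.elim fun x => ⟨x, g.ne x⟩

/-- the special datum -/
structure SD (r : Cd io₀ io) (d₀ : J₀ → ℕ) (M : Type) [Fintype M] (N : ℕ) where
  /-- the points -/
  I : Type
  /-- the universal field of the end -/
  K₀ : Type
  /-- the field of the end -/
  K : Type
  /-- the field with the generic point of `C` -/
  K₁ : Type
  /-- the field with the generic points of `C` and `S` -/
  K₂ : Type
  /-- the universal field -/
  F₀ : Type
  [fI : Fintype I]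
  [f₀ : Field K₀] [a₀ : Algebra ℂ K₀] [e₀ : Algebra.EssFiniteType ℂ K₀]
  [fK : Field K] [aK : Algebra ℂ K] [eK : Algebra.EssFiniteType ℂ K]
  [f₁ : Field K₁] [l₁ : Algebra ℂ K₁] [e₁ : Algebra.EssFiniteType ℂ K₁]
  [f₂ : Field K₂] [l₂ : Algebra ℂ K₂] [e₂ : Algebra.EssFiniteType ℂ K₂]
  [fF : Field F₀] [aF : Algebra ℂ F₀] [eF : Algebra.EssFiniteType ℂ F₀]
  /-- the datum of the end -/
  ξ : Dat io₀ d₀ I K
  /-- the marks -/
  m : M → I
  /-- the universal field of the end inside `K` -/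
  θ₀ : K₀ →ₐ[ℂ] K
  ov : Over ξ m θ₀
  pos : 0 < deg θ₀
  nrm : ξ.NrmUp N
  /-- first step -/
  a₁ : K →ₐ[ℂ] K₁
  /-- the generic point of `C` -/
  ζ : io r.cn.jC → K₁
  gζ : PGen a₁ ζ
  hζ : ∃ i, ζ i ≠ 0
  /-- second step -/
  a₂ : K₁ →ₐ[ℂ] K₂
  /-- the generic point of `S` -/
  μ : io r.cn.jS → K₂
  gμ : PGen a₂ μ
  hμ : ∃ i, μ i ≠ 0
  /-- the universal field inside `K₂` -/
  τ : F₀ →ₐ[ℂ] K₂
  ov' : Over (dat r (ξ.map (a₂.comp a₁)) μ (a₂ ∘ ζ) hμ (ex_comp hζ a₂)) m τ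
  pos' : 0 < deg τ
  nrm' : (dat r (ξ.map (a₂.comp a₁)) μ (a₂ ∘ ζ) hμ (ex_comp hζ a₂)).NrmUp N

attribute [instance] SD.fI SD.f₀ SD.a₀ SD.e₀ SD.fK SD.aK SD.eK SD.f₁ SD.l₁ SD.e₁ SD.f₂ SD.l₂ SD.e₂
  SD.fF SD.aF SD.eF

namespace SD

variable {r : Cd io₀ io} {d₀ : J₀ → ℕ} {M : Type} [Fintype M] {N : ℕ} (S : SD r d₀ M N)

/-- the datum over `K₂` -/
def ξ' : Dat io (r.up d₀) S.I S.K₂ :=
  dat r (S.ξ.map (S.a₂.comp S.a₁)) S.μ (S.a₂ ∘ S.ζ) S.hμ (ex_comp S.hζ S.a₂)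

/-- a datum over `K₁` which agrees with `ξ'` away from `S` -/
def ξ₁ : Dat io (r.up d₀) S.I S.K₁ :=
  dat r (S.ξ.map S.a₁) (fun _ => 1) S.ζ (S.hμ.imp fun _ _ => one_ne_zero) S.hζ

theorem ov_ξ' : Over S.ξ' S.m S.τ := S.ov'

theorem nrm_ξ' : S.ξ'.NrmUp N := S.nrm'

theorem map_comp : (S.ξ.map S.a₁).map S.a₂ = S.ξ.map (S.a₂.comp S.a₁) := by
  unfold Dat.map
  congr 1
  · funext j i
    exact Polynomial.map_map _ _ _
  · funext q
    exact Option.map_map _ _ _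

theorem f_ne {j : J} (h : j ≠ r.cn.jS) : S.ξ'.f j = (S.ξ₁.map S.a₂).f j := by
  rw [ξ₁, dat_map, map_comp]
  exact dat_f_ne r _ _ _ _ h

theorem x_eq : S.ξ'.x = (S.ξ₁.map S.a₂).x := by
  rw [ξ₁, dat_map, map_comp]
  rfl

theorem dim_S : dim ℂ S.K₂ + 1 = dim ℂ S.K₁ + Fintype.card (io r.cn.jS) := S.gμ.dm

end SD

/-- existence of the special datum -/
def ExSD : Prop :=
  ∀ {J : Type} [Fintype J] [DecidableEq J] {io : J → Type} [∀ j, Fintype (io j)]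
    [∀ j, DecidableEq (io j)] {J₀ : Type} [Fintype J₀] [DecidableEq J₀] {io₀ : J₀ → Type}
    [∀ j, Fintype (io₀ j)] [∀ j, DecidableEq (io₀ j)] (r : Cd io₀ io) (d₀ : J₀ → ℕ) (M : Type)
    [Fintype M] (N : ℕ), 3 ≤ Fintype.card M →
    (∀ k, Nonempty (io₀ k) ∧ (d₀ k = 0 ∨ Nontrivial (io₀ k))) → Nonempty (io r.cn.jS) →
    Nonempty (SD r d₀ M N)

/-- the top coefficient -/
def TopStmt : Prop :=
  ∀ (B : Th), B.Ax → ∀ {J : Type} [Fintype J] [DecidableEq J] {io : J → Type}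
    [∀ j, Fintype (io j)] [∀ j, DecidableEq (io j)] {J₀ : Type} [Fintype J₀] [DecidableEq J₀]
    {io₀ : J₀ → Type} [∀ j, Fintype (io₀ j)] [∀ j, DecidableEq (io₀ j)] {A₀ : Type} [Fintype A₀]
    (r : Cd io₀ io) (Tn : Tgt io₀ A₀) (c₀ : ℕ) (d₀ : J₀ → ℕ), Good Tn c₀ d₀ →
    ∃ N₀ : ℕ, ∀ N, N₀ ≤ N → ∀ {M : Type} [Fintype M] (S : SD r d₀ M N)
    (Φ : MFam B io₀ M), MCls B Tn Φ → ∀ (q₀ : M) (r₀ : ℕ), Fintype.card (io r.cn.jS) = r₀ + 1 →
    vir B (End66.sum (r.tgt Tn) r.cn.xT) S.ξ'.cfg S.m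
        (fun E _ _ y => hc B r.cn.jS E (y q₀) ^ r₀ * Φ E fun q => r.pr (y q)) =
      vir B Tn S.ξ.cfg S.m Φ

end Crest.Agent.X262.Read67
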