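import Crest.Agent.X262.Syz.Nv
import Crest.Agent.X262.Gwb59.Ax
import Crest.Agent.X262.Gwb.Mst
import Crest.Agent.X262.Form88.Snc

/-!
# Row 262, road B (helper67): concavity for classes from concavity at field level

* `rs_norm`, `exists_end` : the restriction of the embedding to the concave end;
* `conc_of : ConcF → ConcStmt V.gw`.
-/

set_option autoImplicit false
set_option linter.unusedSectionVars false
set_option maxHeartbeats 400000

noncomputable section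

namespace Crest.Agent.X262.Read67

open Crest.Agent.X277 Crest.Agent.X277.BD
open Crest.Agent.X262.Coh Crest.Agent.X262.Vb Crest.Agent.X262.Qn Crest.Agent.X262.Gwb
open Crest.Agent.X262.Syz (Rst Sat)
open Crest.Agent.X262.Conc78 (Cd ConcF)
open Crest.Agent.X262.End66 (sum)

/-- `w` is a nonzero restriction of `t` along `μ`, with the same numbering -/
def Rw {X Y : SV} (μ : Hom X Y) (t : Tup Y.F) (w : t.io → X.F) : Prop :=
  (∃ i, w i ≠ 0) ∧ ∃ (u : Y.F) (c : X.F), (∀ i, t.y i / u ∈ μ.p.O) ∧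
    ∀ i, w i = c * μ.p.π (t.y i / u)

theorem rw_of {X Y : SV} {μ : Hom X Y} {t : Tup Y.F} {s : Tup X.F} (h0 : ∃ i, s.y i ≠ 0)
    (h : Rs μ t s) : ∃ e : t.io ≃ s.io, Rw μ t fun i => s.y (e i) := by
  obtain ⟨e, u, c, h1, h2⟩ := h
  obtain ⟨i, hi⟩ := h0
  exact ⟨e, ⟨e.symm i, by beta_reduce; rwa [e.apply_symm_apply]⟩, u, c, h1, h2⟩

theorem rs_norm {X Y Z : SV} {μ : Hom X Y} {ν : Hom X Z} {t : Tup Y.F} {t' : Tup Z.F}
    (h : ∃ s : Tup X.F, s.Reg _ ∧ Rs μ t s ∧ Rs ν t' s) :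
    ∃ w : t.io → X.F, Rw μ t w ∧ Rs ν t' ⟨t.io, w⟩ := by
  obtain ⟨s, h0, h1, e', u, c, h2, h3⟩ := h
  obtain ⟨e, he⟩ := rw_of h0.1 h1
  exact ⟨_, he, e'.trans e.symm, u, c, h2, fun i =>
    (congrArg s.y (e.apply_symm_apply _)).trans (h3 i)⟩

variable {Y S Z : SV} {i : Hom (Y.prod S) Z} {m : Emb Z} {n : Emb Y}

/-- the restriction of the embedding to the end -/
theorem exists_end (p : Pur i m n) : ∃ y' : Pnt m.toPre.io (Y.prod S).F, Rst i m.toPre y' ∧
    Rs (snd Y S) (ownT S) ⟨(m.T (p.e (some none))).io, y' _⟩ ∧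
    ∀ k, Rs (fst Y S) (n.T k) ⟨(m.T (p.e (some (some k)))).io, y' _⟩ := by
  obtain ⟨a, a1, a2⟩ := End36.exists_rs i (m.reg (p.e none))
  obtain ⟨e, a3⟩ := rw_of a2 a1
  obtain ⟨b, b1, b2⟩ := rs_norm p.rsS
  choose g g1 g2 using fun k => rs_norm (p.rsY k)
  let w : ∀ o, (m.T (p.e o)).io → (Y.prod S).F := fun o => match o with
    | none => fun l => a (e l)
    | some none => b
    | some (some k) => g k
  have h1 : ∀ o, Equiv.piCongrLeft (fun j => (m.T j).io → (Y.prod S).F) p.e w (p.e o) = w o :=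
    fun o => Equiv.piCongrLeft_apply_apply _ _ _ _
  have h2 : ∀ j, Rw i (m.T j)
      (Equiv.piCongrLeft (fun j => (m.T j).io → (Y.prod S).F) p.e w j) := fun j => by
    obtain ⟨o, rfl⟩ := p.e.surjective j
    rw [h1]
    rcases o with _ | _ | k
    exacts [a3, b1, g1 k]
  refine ⟨Equiv.piCongrLeft _ p.e w, ⟨fun j => (h2 j).1, fun j => (h2 j).2⟩, ?_, fun k => ?_⟩
  · rw [h1]; exact b2
  · rw [h1]; exact g2 k

variable {C : Coh.Th} {B : Hb.Th}

/-- **concavity for classes** -/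
theorem conc_of (V : Vir C B) (h : ConcF) : ConcStmt V.gw := by
  intro Y S Z i m n p hS d d' hC hS0 hk hU x l hz hN
  rcases lt_or_ge l.card 2 with hl | hl
  · refine ⟨1, one_ne_zero, ?_⟩
    rw [V.low m d _ (by rwa [Multiset.card_map]), V.low n d' _ (by rwa [Multiset.card_map])]
    simp
  obtain ⟨y', h0, hs, hy⟩ := exists_end p
  let P : Pre (Y.prod S) := h0.pre p.dv.emb
  obtain ⟨D₁⟩ := exists_rsD (μ := fst Y S) (n := n.toPre) (m := P)
    (g := fun k => p.e (some (some k))) hy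
  choose u c h1 h2 using h0.2
  let D₀ : RsD i m.toPre P id := ⟨fun _ => Equiv.refl _, u, c, h1, h2⟩
  let r : Cd n.toPre.io m.toPre.io := ⟨p.e, D₁.e, p.jU, p.f⟩
  have s1 : Sat (sum m.tgt r.cn.xT) y' := Syz.sat_dv r.cn h0 p.cv p.dv
  have hc : C.pb (snd Y S) (C.hc S) = P.h C (p.e (some none)) :=
    End36.rs_pb_c1 V.man hs (h0.1 _) (End36.reg_own S)
  obtain ⟨eS, uS, cS, -, hs⟩ := hs
  have s2 : Sat (sum (r.tgt n.tgt) r.cn.xT) y' :=
    Syz.sat_cd hS n.toPre r h0.1 ⟨D₁.nz h0.1, fun k => ⟨D₁.u k, D₁.c k, D₁.mem k, D₁.eq k⟩⟩ eS uS cS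
      hs fun q => (MvPolynomial.aeval_X (fun v : Vr m.toPre.io => y' v.1 v.2)
        ⟨_, r.f (some q)⟩).symm.trans (s1.on (.inr q))
  obtain ⟨M, _, _, a, rfl, hM⟩ := Ev.exists_idx l
  have e1 : r.up d' = d := funext fun j => by
    obtain ⟨_ | _ | k, rfl⟩ := p.e.surjective j
    exacts [(r.up_C _).trans hC.symm, (r.up_S _).trans hS0.symm, (r.up_k _ k).trans (hk k).symm]
  have hd := p.dv.dim_eq
  have h3 := h B V.hB r m.tgt m.toPre.cod n.tgt n.toPre.cod d' hU (V.good m _) (V.good n _)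
    (Syz.loc_uT r.cn p.cv) (s1.same s2)
  have h4 := @h3 (Syz.nv_cv r.cn h0 p.cv p.dv (by omega)) (Option M) _
    (fun q => (V.I.e m.toPre).fam (q.elim x a).1)
    (fun q => (V.I.e n.toPre).fam (q.elim x a).2.1) (fun q => (V.I.e n.toPre).fam (q.elim x a).2.2)
    (fun _ => V.hI.cls _ _) (fun _ => V.hI.cls _ _) (fun _ => V.hI.cls _ _)
    (fun q E _ _ _ z z1 z2 => by
      have z3 : P.On z := fun f κ hf f0 => s1.irr hf f0 z1 z2
      have z4 := congrArg (V.I.ev P E z) (hz (q.elim x a) (by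
        rw [← map_option]
        exact Multiset.mem_map_of_mem _ (Finset.mem_univ_val q)))
      rw [map_add, map_mul, hc, V.hI.rs D₀ E z z1 z3, V.hI.rs D₁ E z z1 z3,
        V.hI.rs D₁ E z z1 z3] at z4
      exact z4.trans (congrArg (fun t => _ + t * _) (V.hI.hc P _ E z z1 z3)))
    (by
      rw [Fintype.card_option, hM, ← add_assoc, ← hN]
      exact (Fintype.card_congr eS).symm.trans (Fintype.card_fin _))
  obtain ⟨k, k0, h5⟩ := h4
  refine ⟨k, k0, ?_⟩
  rw [V.itg_op m d (by rwa [Multiset.card_map]), V.itg_op n d' (by rwa [Multiset.card_map]),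
    Multiset.map_map, Multiset.map_map, ← map_option, ← map_option,
    Ev.gw_eq (V.a0 m d), Ev.gw_eq (V.a0 n d'), ← e1]
  convert h5 using 5 with q q
  · cases q <;> rfl
  · cases q <;> rfl

end Crest.Agent.X262.Read67
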