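import Crest.Agent.X262.Vb.Defs
import Crest.Agent.X262.Tree87.T3

/-!
# Row 262, road B (helper67): the concave end, field level definitions and statements

* `kz σ` : the matrix of `δ ↦ δ ∧ σ`;  `Cv io U` : a factor `k` with coordinates `Option U`, whose
  coordinates `some u` are proportional to `σ u`;  `At`, `mt`, `Tb`, `cl`;
* `Rel`, `Hyp` : `T` is the target, `T₀ ∩ {At}` is the end;
* `opt`, `ext`, `fac`, `up`, `cv1`, `cvK`, `cvP` : one more factor;
* the statements `KzStmt`, `TbStmt`, `DvStmt`, `CpStmt`, `PdStmt`, `RootStmt`, `CmpStmt`, `RdStmt`.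
-/

set_option autoImplicit false
set_option linter.unusedSectionVars false
set_option maxHeartbeats 400000

noncomputable section

namespace Crest.Agent.X262.Read67

open Crest.Agent.X277 Crest.Agent.X277.BD Polynomial
open Crest.Agent.X262.Hb Crest.Agent.X262.Vb
open Crest.Agent.X262.Tree87 (Rb TL)
open Crest.Agent.X262.Bub96.Tr (dot)

variable {J : Type} [Fintype J] [DecidableEq J] {io : J → Type} [∀ j, Fintype (io j)]
  [∀ j, DecidableEq (io j)] {A A' A₀ U : Type} [Fintype A] [Fintype A'] [Fintype A₀] [Fintype U]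
  [DecidableEq U]

theorem mh_X (v : Vr io) : MH (MvPolynomial.X v) (Pi.single v.1 1) :=
  MvPolynomial.isWeightedHomogeneous_X ℂ _ v

theorem mh_mul {p q : MvPolynomial (Vr io) ℂ} {κ κ' : J → ℕ} (hp : MH p κ) (hq : MH q κ') :
    MH (p * q) (κ + κ') := MvPolynomial.IsWeightedHomogeneous.mul hp hq

theorem mh_sub {p q : MvPolynomial (Vr io) ℂ} {κ : J → ℕ} (hp : MH p κ) (hq : MH q κ) :
    MH (p - q) κ :=
  (MvPolynomial.weightedHomogeneousSubmodule ℂ _ κ).sub_mem hp hq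

/-- the matrix of `δ ↦ δ ∧ σ` -/
def kz (σ : U → MvPolynomial (Vr io) ℂ) (p : U × U) (u : U) : MvPolynomial (Vr io) ℂ :=
  (if u = p.1 then σ p.2 else 0) - if u = p.2 then σ p.1 else 0

/-- no common zero -/
def Nz (σ : U → MvPolynomial (Vr io) ℂ) : Prop :=
  ∀ (E : Type) [Field E] [Algebra ℂ E] (y : Pnt io E), NZ y → ∃ u, pv y (σ u) ≠ 0

/-- a factor whose last coordinates are proportional to `σ` -/
structure Cv (io : J → Type) (U : Type) where
  /-- the factor -/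
  k : J
  /-- its coordinates -/
  e : Option U ≃ io k
  /-- the direction -/
  σ : U → MvPolynomial (Vr io) ℂ
  /-- its multidegree -/
  κ : J → ℕ
  hom : ∀ u, MH (σ u) κ
  κk : κ k = 0
  nz : Nz σ

namespace Cv

variable (v : Cv io U) {I E : Type} [Fintype I] [Field E] [Algebra ℂ E]

/-- the variables which vanish on the end -/
def x (u : U) : Vr io := ⟨v.k, v.e (some u)⟩

/-- the point lies over the base point of the factor `k` -/
def At (y : Pnt io E) : Prop := ∀ u, y v.k (v.e (some u)) = 0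

/-- the minors -/
def mt : Tgt io (U × U) where
  F p := MvPolynomial.X (v.x p.1) * v.σ p.2 - MvPolynomial.X (v.x p.2) * v.σ p.1
  k _ := v.κ + Pi.single v.k 1
  hom p := by
    rw [add_comm]
    exact mh_sub (mh_mul (mh_X (v.x p.1)) (v.hom _)) (mh_mul (mh_X (v.x p.2)) (v.hom _))

/-- the sections of `O ^ U / O(-κ)`, twisted by `O(1)` of the factor `k` -/
def Tb (z : Cfg io I E) : Submodule E ((U × U) × I → E) := Rb v.mt.k (kz v.σ) z

/-- its Chern polynomial -/
def cl (B : Th) (z : Cfg io I E) : (B.H E)[X] := B.cp (z.ea v.mt) (v.Tb z)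

end Cv

/-- `T` satisfies the minors, and `T ∩ {At} = T₀ ∩ {At}` as schemes -/
structure Rel (v : Cv io U) (T : Tgt io A) (T₀ : Tgt io A₀) : Prop where
  k0 : ∀ b, T₀.k b v.k = 0
  m1 : ∀ p, v.mt.F p ∈ Ideal.span (Set.range T.F)
  m2 : ∀ a, T.F a ∈ Ideal.span (Set.range T₀.F ∪ Set.range fun u => MvPolynomial.X (v.x u))
  m3 : ∀ (E : Type) [Field E] [Algebra ℂ E] (y : Pnt io E), NZ y → T.On y → v.At y → ∀ b,
    ∃ h, pv y h ≠ 0 ∧
      h * T₀.F b ∈ Ideal.span (Set.range T.F ∪ Set.range fun u => MvPolynomial.X (v.x u))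

/-- the end is a divisor of `T`, of negative degree on the curves -/
structure Hyp (v : Cv io U) (T : Tgt io A) (T₀ : Tgt io A₀) (c c₀ : ℕ) (d : J → ℕ) : Prop where
  rel : Rel v T T₀
  good : Good T c d
  good₀ : Good T₀ c₀ d
  cod : c + 1 = c₀ + Fintype.card U
  dk : d v.k = 0
  pos : dot v.κ d ≠ 0

/-! ### one more factor -/

/-- one more factor with coordinates `X` -/
def opt (io : J → Type) (X : Type) : Option J → Type
  | none => X
  | some j => io j

instance {X : Type} [h : Fintype X] : ∀ j, Fintype (opt io X j)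
  | none => h
  | some j => inferInstanceAs (Fintype (io j))

instance {X : Type} [h : DecidableEq X] : ∀ j, DecidableEq (opt io X j)
  | none => h
  | some j => inferInstanceAs (DecidableEq (io j))

/-- extension of a multidegree by zero -/
def od0 (d : J → ℕ) : Option J → ℕ := fun j => j.elim 0 d

section Opt

variable (X : Type) [Fintype X] [DecidableEq X]

/-- the old variables -/
def vs (v : Vr io) : Vr (opt io X) := ⟨some v.1, v.2⟩

theorem mh_vs {q : MvPolynomial (Vr io) ℂ} {κ : J → ℕ} (h : MH q κ) :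
    MH (MvPolynomial.rename (vs X) q) (od0 κ) := by
  intro s hs
  obtain ⟨u, rfl, hu⟩ := MvPolynomial.coeff_rename_ne_zero _ _ _ hs
  rw [← h hu]
  funext j
  rw [Finsupp.weight_apply, Finsupp.weight_apply,
    Finsupp.sum_mapDomain_index (by simp) (by simp [add_smul]), Finsupp.sum, Finsupp.sum,
    Finset.sum_apply]
  rcases j with _ | j
  · simp [od0, vs]
  · simp only [od0, Option.elim, Finset.sum_apply]
    refine Finset.sum_congr rfl fun v _ => ?_
    simp [vs, Pi.single_apply]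

/-- the same equations -/
def ext (T : Tgt io A) : Tgt (opt io X) A where
  F a := MvPolynomial.rename (vs X) (T.F a)
  k a := od0 (T.k a)
  hom a := mh_vs X (T.hom a)

variable {X} {E : Type}

/-- forget the new factor -/
def fp (y : Pnt (opt io X) E) : Pnt io E := fun j => y (some j)

variable [Field E] [Algebra ℂ E]

theorem pv_vs (y : Pnt (opt io X) E) (q : MvPolynomial (Vr io) ℂ) :
    pv y (MvPolynomial.rename (vs X) q) = pv (fp y) q := MvPolynomial.aeval_rename _ _ _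

/-- forget the new factor -/
def fac {I : Type} (z : Cfg (opt io X) I E) : Cfg io I E where
  y q := fp (z.y q)
  V κ := z.V (od0 κ)

/-- a constant map to the new factor -/
def up {d : J → ℕ} {I : Type} (ξ : Dat io d I E) (μ : X → E) (h : ∃ x, μ x ≠ 0) :
    Dat (opt io X) (od0 d) I E where
  f j := match j with
    | none => fun x => C (μ x)
    | some j => ξ.f j
  x := ξ.x
  cp := by
    obtain ⟨x, hx⟩ := h
    refine ⟨?_, ?_, ?_⟩ <;> rintro (_ | j)
    · exact fun i => (natDegree_C _).le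
    · exact ξ.cp.1 j
    · exact ⟨x, by simpa [od0] using hx⟩
    · exact ξ.cp.2.1 j
    · exact Ideal.eq_top_of_isUnit_mem _ (Ideal.subset_span ⟨x, rfl⟩) (isUnit_C.2 hx.isUnit)
    · exact ξ.cp.2.2 j

end Opt

/-- the cone in the direction `σ` -/
def cv1 (σ : U → MvPolynomial (Vr io) ℂ) (κ : J → ℕ) (h : ∀ u, MH (σ u) κ) (h0 : Nz σ) :
    Cv (opt io (Option U)) U where
  k := none
  e := Equiv.refl _
  σ u := MvPolynomial.rename (vs (Option U)) (σ u)
  κ := od0 κ
  hom u := mh_vs _ (h u)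
  κk := rfl
  nz E _ _ y hy := by
    obtain ⟨u, hu⟩ := h0 E (fp y) fun j => hy (some j)
    exact ⟨u, by rwa [pv_vs]⟩

/-- the direction is the point of the factor `k` -/
def cvK (k : J) : Cv (opt io (Option (io k))) (io k) :=
  cv1 (fun u => MvPolynomial.X ⟨k, u⟩) (Pi.single k 1) (fun u => mh_X ⟨k, u⟩) fun _ _ _ y hy => by
    obtain ⟨u, hu⟩ := hy k
    exact ⟨u, by simpa [pv] using hu⟩

/-- the coordinates of `y ⊗ μ` -/
def sgP (k : J) (W : Type) (u : io k × W) : MvPolynomial (Vr (opt io W)) ℂ :=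
  MvPolynomial.X (⟨some k, u.1⟩ : Vr (opt io W)) * MvPolynomial.X (⟨none, u.2⟩ : Vr (opt io W))

theorem pv_sgP (k : J) (W : Type) (u : io k × W) {E : Type} [Field E] [Algebra ℂ E]
    (y : Pnt (opt io W) E) : pv y (sgP k W u) = y (some k) u.1 * y none u.2 := by
  rw [sgP, pv, map_mul, MvPolynomial.aeval_X, MvPolynomial.aeval_X]

/-- the direction is `y ⊗ μ`, `y` the point of the factor `k`, `μ` the point of the new factor -/
def cvP (k : J) (W : Type) [Fintype W] [DecidableEq W] :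
    Cv (opt (opt io W) (Option (io k × W))) (io k × W) :=
  cv1 (sgP k W) (Pi.single (some k) 1 + Pi.single none 1)
    (fun u => mh_mul (mh_X (⟨some k, u.1⟩ : Vr (opt io W))) (mh_X (⟨none, u.2⟩ : Vr (opt io W))))
    fun _ _ _ y hy => by
      obtain ⟨u, hu⟩ := hy (some k)
      obtain ⟨w, hw⟩ := hy none
      exact ⟨(u, w), by rw [pv_sgP]; exact mul_ne_zero hu hw⟩

/-- `μ` is the generic point of a projective space over `K`, with function field `F` -/
structure PGen {K F X : Type} [Field K] [Algebra ℂ K] [Field F] [Algebra ℂ F] [Fintype X]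
    (θ : K →ₐ[ℂ] F) (μ : X → F) : Prop where
  ne : ∀ x, μ x ≠ 0
  gen : IntermediateField.adjoin ℂ (Set.range θ ∪ {t | ∃ x x', t = μ x / μ x'}) = ⊤
  dm : dim ℂ F + 1 = dim ℂ K + Fintype.card X

/-! ### statements -/

/-- Riemann-Roch for `O ^ U / O(-κ)` -/
def KzStmt : Prop :=
  ∀ {J : Type} [Fintype J] [DecidableEq J] {io : J → Type} [∀ j, Fintype (io j)]
    [∀ j, DecidableEq (io j)] {U : Type} [Fintype U] [DecidableEq U]
    (σ : U → MvPolynomial (Vr io) ℂ) (κ κ' d : J → ℕ), (∀ u, MH (σ u) κ) → Nz σ → dot κ' d = 0 →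
    ∃ N : ℕ, ∀ {I E : Type} [Fintype I] [Field E] [Algebra ℂ E] (z : Cfg io I E), TL d N z →
      Module.finrank E (Rb (fun _ => κ + κ') (kz σ) z) + 1 = Fintype.card U + dot κ d

/-- `Tb` is a bundle on the whole space of maps -/
def TbStmt : Prop :=
  ∀ (B : Th), B.Ax → ∀ {J : Type} [Fintype J] [DecidableEq J] {io : J → Type}
    [∀ j, Fintype (io j)] [∀ j, DecidableEq (io j)] {U : Type} [Fintype U] [DecidableEq U]
    (v : Cv io U) (d : J → ℕ), d v.k = 0 → ∃ N : ℕ, ∀ {I K E : Type} [Fintype I] [Field K]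
    [Algebra ℂ K] [Algebra.EssFiniteType ℂ K] [Field E] [Algebra ℂ E] [Algebra.EssFiniteType ℂ E]
    (ξ : Dat io d I K), ξ.NrmUp N → ∀ p : LP K E,
      (v.cl B ξ.cfg).map (B.pb p : B.H K →+* B.H E) = v.cl B (ξ.cfg.red p.toPl)

/-- the sizes of the sections -/
def DvStmt : Prop :=
  ∀ {J : Type} [Fintype J] [DecidableEq J] {io : J → Type} [∀ j, Fintype (io j)]
    [∀ j, DecidableEq (io j)] {A A₀ U : Type} [Fintype A] [Fintype A₀] [Fintype U] [DecidableEq U]
    (v : Cv io U) (T : Tgt io A) (T₀ : Tgt io A₀) (c c₀ : ℕ) (d : J → ℕ), Hyp v T T₀ c c₀ d →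
    ∃ N : ℕ, ∀ {I K : Type} [Fintype I] [Field K] [Algebra ℂ K] (ξ : Dat io d I K), ξ.NrmUp N →
      ∀ V : RZ ℂ K, nm (ξ.cfg.ea T) V (ξ.cfg.sv T) =
        max (nm (ξ.cfg.ea T₀) V (ξ.cfg.sv T₀)) (nm (ξ.cfg.ea v.mt) V (ξ.cfg.sv v.mt))

/-- the sequence `0 → E₀ → E → Tb → 0` -/
def CpStmt : Prop :=
  ∀ (B : Th), B.Ax → ∀ {J : Type} [Fintype J] [DecidableEq J] {io : J → Type}
    [∀ j, Fintype (io j)] [∀ j, DecidableEq (io j)] {A A₀ U : Type} [Fintype A] [Fintype A₀]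
    [Fintype U] [DecidableEq U] (v : Cv io U) (T : Tgt io A) (T₀ : Tgt io A₀) (c c₀ : ℕ)
    (d : J → ℕ), Hyp v T T₀ c c₀ d → ∃ N : ℕ, ∀ {I K E : Type} [Fintype I] [Field K] [Algebra ℂ K]
    [Field E] [Algebra ℂ E] [Algebra.EssFiniteType ℂ E] (ξ : Dat io d I K), ξ.NrmUp N →
    ∀ p : LP K E, (ξ.cfg.red p.toPl).On T →
      (ξ.cfg.red p.toPl).On T₀ ∧ (∀ q, v.At ((ξ.cfg.red p.toPl).y q)) ∧
      B.cp ((ξ.cfg.red p.toPl).ea T) ((ξ.cfg.red p.toPl).Eb T) =
        B.cp ((ξ.cfg.red p.toPl).ea T₀) ((ξ.cfg.red p.toPl).Eb T₀) * v.cl B (ξ.cfg.red p.toPl)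

/-- the universal datum with one more factor of degree zero -/
def PdStmt : Prop :=
  ∀ {J : Type} [Fintype J] [DecidableEq J] {io : J → Type} [∀ j, Fintype (io j)]
    [∀ j, DecidableEq (io j)] {d : J → ℕ} {I M K K₀ : Type} [Fintype I] [Fintype M] [Field K]
    [Algebra ℂ K] [Algebra.EssFiniteType ℂ K] [Field K₀] [Algebra ℂ K₀]
    [Algebra.EssFiniteType ℂ K₀] (ξ : Dat io d I K) (m : M → I) (θ₀ : K₀ →ₐ[ℂ] K), Over ξ m θ₀ →
    0 < deg θ₀ → ∀ (X : Type) [Fintype X] [DecidableEq X] [Nonempty X],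
    ∃ (F F₀ : Type) (_ : Field F) (_ : Algebra ℂ F) (_ : Algebra.EssFiniteType ℂ F) (_ : Field F₀)
      (_ : Algebra ℂ F₀) (_ : Algebra.EssFiniteType ℂ F₀) (θ : K →ₐ[ℂ] F) (τ : F₀ →ₐ[ℂ] F)
      (μ : X → F) (h : ∃ x, μ x ≠ 0), PGen θ μ ∧ deg τ = deg θ₀ ∧ Over (up (ξ.map θ) μ h) m τ

/-- the Chern roots of `Tb` on the generic fibre -/
def RootStmt : Prop :=
  ∀ (B : Th), B.Ax → ∀ {J : Type} [Fintype J] [DecidableEq J] {io : J → Type}
    [∀ j, Fintype (io j)] [∀ j, DecidableEq (io j)] (k : J) (W : Type) [Fintype W] [DecidableEq W]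
    (d : J → ℕ) (h : ℕ), d k = h + 1 → ∃ N : ℕ, ∀ {I K F : Type} [Fintype I] [Field K]
    [Algebra ℂ K] [Field F] [Algebra ℂ F] [Algebra.EssFiniteType ℂ F] (ξ : Dat io d I K),
    ξ.NrmUp N → ∀ (θ : K →ₐ[ℂ] F) (μ : W → F) (hμ : ∃ w, μ w ≠ 0) (ζ : Option (io k × W) → F)
    (hζ : ∃ x, ζ x ≠ 0), ∃ l₁ l₂ : List (BD ℂ F),
      (cvP k W).cl B (up (up (ξ.map θ) μ hμ) ζ hζ).cfg = B.cl (l₁ ++ l₂) ∧
      l₁.length = Fintype.card (io k × W) ∧ l₂.length = h ∧
      ∀ V : RZ ℂ F, (∀ a, θ a ∈ V.1) → (∀ b ∈ l₁, b.val V = (mxf ℂ ζ).val V) ∧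
        ∀ b ∈ l₂, b.val V = (mxf ℂ ζ - mxf ℂ μ).val V

/-- two targets with the same end have the same invariants -/
def CmpStmt : Prop :=
  ∀ (B : Th), B.Ax → ∀ {J : Type} [Fintype J] [DecidableEq J] {io : J → Type}
    [∀ j, Fintype (io j)] [∀ j, DecidableEq (io j)] {A A' A₀ U : Type} [Fintype A] [Fintype A']
    [Fintype A₀] [Fintype U] [DecidableEq U] (v : Cv io U) (T : Tgt io A) (T' : Tgt io A')
    (T₀ : Tgt io A₀) (c c₀ : ℕ) (d : J → ℕ), Hyp v T T₀ c c₀ d → Hyp v T' T₀ c c₀ d →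
    ∀ {M : Type} [Fintype M] (Φ Φ' : MFam B io M),
    (∀ (E : Type) [Field E] [Algebra ℂ E] [Algebra.EssFiniteType ℂ E] (y : M → Pnt io E),
      (∀ q, NZ (y q)) → (∀ q, T₀.On (y q)) → (∀ q, v.At (y q)) → Φ E y = Φ' E y) →
    GW B T d Φ = GW B T' d Φ'

/-- the invariants of the end are the top coefficients in the class of the projective space -/
def RdStmt : Prop :=
  ∀ (B : Th), B.Ax → ∀ {J : Type} [Fintype J] [DecidableEq J] {io : J → Type}
    [∀ j, Fintype (io j)] [∀ j, DecidableEq (io j)] {A A₀ : Type} [Fintype A] [Fintype A₀]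
    (k : J) (W : Type) [Fintype W] [DecidableEq W]
    (T : Tgt (opt (opt io W) (Option (io k × W))) A) (T₀ : Tgt io A₀) (c c₀ : ℕ) (d : J → ℕ)
    (h r : ℕ), (∀ j, Nontrivial (io j)) → Fintype.card W = r + 1 → d k = h + 1 →
    Good T₀ c₀ d → Hyp (cvP k W) T (ext _ (ext W T₀)) c c₀ (od0 (od0 d)) →
    ∀ {M : Type} [Fintype M], 3 ≤ Fintype.card M → ∀ (Φ : MFam B io M)
    (Φ' : MFam B (opt (opt io W) (Option (io k × W))) M) (n : M → ℕ), MCls B T₀ Φ → MCls B T Φ' →
    (∀ (E : Type) [Field E] [Algebra ℂ E] [Algebra.EssFiniteType ℂ E]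
      (y : M → Pnt (opt (opt io W) (Option (io k × W))) E), (∀ q, NZ (y q)) → (∀ q, T.On (y q)) →
      (∀ q, (cvP k W).At (y q)) →
      Φ' E y = Φ E (fun q => fp (fp (y q))) * ∏ q, B.c1 (ln (y q) (some none)) ^ n q) →
    h + ∑ q, n q ≤ r →
    GW B T (od0 (od0 d)) Φ' = if h + ∑ q, n q = r then (-1) ^ h * GW B T₀ d Φ else 0

end Crest.Agent.X262.Read67
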