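import Crest.Agent.X262.Read67.Ad
import Crest.Agent.X262.Cd62.Uc

/-!
# Row 262, road B (helper67): concavity for classes, unconditional
-/

namespace Crest.Agent.X262.Read67

/-- **concavity for classes** -/
theorem concStmt {C : Coh.Th} {B : Hb.Th} (V : Gwb.Vir C B) : Gwb.ConcStmt V.gw :=
  conc_of V Cd62.concF

end Crest.Agent.X262.Read67
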